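import Vale.Agent.P174.Main

namespace Vale.Agent.Results.P174.Howie

universe u

/-- The exponent-sum homomorphism `G ∗ F_n → ℤ^n`: it kills `G` and sends `x_j` to `e_j`. -/
def expo (G : Type u) [Group G] (n : ℕ) :
    Monoid.Coprod G (FreeGroup (Fin n)) →* Multiplicative (Fin n → ℤ) :=
  Monoid.Coprod.lift 1 (FreeGroup.lift fun j => Multiplicative.ofAdd (Pi.single j 1))

/-- The exponent-sum matrix of a system `w_1, …, w_m`, with rational entries. -/
def expMatrix (G : Type u) [Group G] (m n : ℕ) (w : Fin m → Monoid.Coprod G (FreeGroup (Fin n))) :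
    Matrix (Fin m) (Fin n) ℚ :=
  Matrix.of fun i j => ((Multiplicative.toAdd (expo G n (w i)) j : ℤ) : ℚ)

/-- Howie's conjecture: a nonsingular finite system of equations over any group `G` is solvable
over `G`. -/
theorem result (G : Type u) [Group G] (m n : ℕ) (w : Fin m → Monoid.Coprod G (FreeGroup (Fin n)))
    (h : (expMatrix G m n w).rank = m) :
    Function.Injective
      ((QuotientGroup.mk' (Subgroup.normalClosure (Set.range w))).comp Monoid.Coprod.inl) := by
  rw [injective_iff_map_eq_one]
  intro g hg
  exact Vale.Agent.P174.howie w h g ((QuotientGroup.eq_one_iff _).1 hg)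

end Vale.Agent.Results.P174.Howie
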